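import Vale.Agent.P372.State

open Vale.Agent.P372

theorem Vale.Agent.Results.P372.ZeroKey.result :
    ∃ (a b : ℕ) (ρ : Matrix (Fin a × Fin b) (Fin a × Fin b) ℂ), IsState ρ ∧ ¬Separable ρ ∧
      (∃ (e : ℕ) (ψ : Fin a × Fin b × Fin e → ℂ), Purifies ψ ρ) ∧
      ∀ (e : ℕ) (ψ : Fin a × Fin b × Fin e → ℂ), Purifies ψ ρ → keyRate ψ = 0 := by
  obtain ⟨a, b, ρ, h1, h2, h3⟩ := main
  exact ⟨a, b, ρ, h1, h2, purify h1.1, fun _ _ h => keyRate_zero h3 h⟩
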